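import Vale.Agent.P129BZ.HB
import Vale.Agent.P129B.Choice

/-!
# A linear functional below an infimum of sublinear type
-/

namespace Vale.Agent.P129B

universe v

variable {N : Type v} [ZM N]

section

variable {R : Type*} [Field R] [LinearOrder R] [IsStrictOrderedRing R] [Coded N R] [Tot N R]
  [DefAdd N R] [DefSub N R] [DefMul N R] [DefLE N R]
  {W : Type*} [AddCommGroup W] [Module R W] [Coded N W] [Bdd N W] [DefAdd N W] [DefSMul N R W]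
  {E : Type*} [Coded N E]

/-- Hahn-Banach for the sublinear function `w ↦ inf (A w z : z ∈ F)`. -/
theorem hb_inf (lub : ∀ S : Set R, Intl N S → S.Nonempty → BddAbove S → ∃ c, IsLUB S c)
    (V : Set W) [hV : Intl N V] (Vadd : ∀ x ∈ V, ∀ y ∈ V, x + y ∈ V)
    (Vsmul : ∀ c : R, ∀ x ∈ V, c • x ∈ V) (F : Set E) [hF : Intl N F] (hne : F.Nonempty)
    (A : W → E → R) (hA : DefF N (fun p : W × E => A p.1 p.2))
    (A0 : ∀ w ∈ V, ∀ z ∈ F, 0 ≤ A w z)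
    (Aadd : ∀ w ∈ V, ∀ w' ∈ V, ∀ z ∈ F, ∀ z' ∈ F, ∃ y ∈ F, A (w + w') y ≤ A w z + A w' z')
    (Asmul : ∀ c : R, 0 < c → ∀ w ∈ V, ∀ z ∈ F, ∃ y ∈ F, A (c • w) y ≤ c * A w z)
    {x₀ : W} (hx₀ : x₀ ∈ V) :
    ∃ l : W → R, DefF N l ∧ (∀ x ∈ V, ∀ y ∈ V, l (x + y) = l x + l y) ∧
      (∀ c : R, ∀ x ∈ V, l (c • x) = c * l x) ∧ (∀ w ∈ V, ∀ z ∈ F, l w ≤ A w z) ∧
      ∀ ε : R, 0 < ε → ∃ z ∈ F, A x₀ z < l x₀ + ε := by
  have : Nonempty R := ⟨0⟩
  obtain ⟨p, hp, hp'⟩ := exists_defF_choice (N := N) (α := W) (β := R)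
    (R := fun w c => w ∈ V → (∀ z ∈ F, c ≤ A w z) ∧ ∀ d, (∀ z ∈ F, d ≤ A w z) → d ≤ c)
    (by fun_prop) fun w hw => by
      by_cases h : w ∈ V
      · obtain ⟨c, hc1, hc2⟩ := lub {d | ∀ z ∈ F, d ≤ A w z} (intl_setOfT (by fun_prop))
          ⟨0, A0 w h⟩ (by
            obtain ⟨z, hz⟩ := hne
            exact ⟨A w z, fun d hd => hd z hz⟩)
        exact ⟨c, inferInstance, fun _ => ⟨fun z hz => hc2 fun d hd => hd z hz,
          fun d hd => hc1 hd⟩⟩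
      · exact ⟨0, inferInstance, fun h' => absurd h' h⟩
  have p1 : ∀ w ∈ V, ∀ z ∈ F, p w ≤ A w z := fun w hw => (hp' w (hV.of_mem hw) hw).1
  have p2 : ∀ w ∈ V, ∀ d, (∀ z ∈ F, d ≤ A w z) → d ≤ p w :=
    fun w hw => (hp' w (hV.of_mem hw) hw).2
  have ps : ∀ c : R, 0 < c → ∀ w ∈ V, p (c • w) ≤ c * p w := by
    intro c hc w hw
    rw [← div_le_iff₀' hc]
    refine p2 w hw _ fun z hz => ?_
    obtain ⟨y, hy, h⟩ := Asmul c hc w hw z hz
    rw [div_le_iff₀' hc]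
    exact (p1 _ (Vsmul c w hw) y hy).trans h
  obtain ⟨l, l1, l2, l3, l4, l5⟩ := hahn_banach_of_lub lub V Vadd Vsmul p hp
    (fun w hw w' hw' => by
      have h1 : p (w + w') - p w ≤ p w' := p2 w' hw' _ fun z' hz' => by
        have h2 : p (w + w') - A w' z' ≤ p w := p2 w hw _ fun z hz => by
          obtain ⟨y, hy, h⟩ := Aadd w hw w' hw' z hz z' hz'
          linarith [p1 _ (Vadd w hw w' hw') y hy]
        linarith
      linarith)
    (fun c hc w hw => le_antisymm (ps c hc w hw) (by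
      have h1 := ps c⁻¹ (inv_pos.2 hc) _ (Vsmul c w hw)
      rw [smul_smul, inv_mul_cancel₀ hc.ne', one_smul] at h1
      rwa [← le_inv_mul_iff₀ hc])) hx₀
  refine ⟨l, l1, l2, l3, fun w hw z hz => (l4 w hw).trans (p1 w hw z hz), fun ε hε => ?_⟩
  by_contra hc
  have := p2 x₀ hx₀ (l x₀ + ε) fun z hz => not_lt.1 fun h => hc ⟨z, hz, h⟩
  linarith

end

end Vale.Agent.P129B
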