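import Vale.Agent.P129BE.Step
import Vale.Agent.P129BB.Corr

/-!
# Helly and the correction step for functionals of the dual space
-/

namespace Vale.Agent.P129B

universe v

variable {N : Type v} [ZM N]
  {R : Type*} [Field R] [LinearOrder R] [IsStrictOrderedRing R] [Coded N R] [RF N R]
  {K : Type*} [Field K] [Algebra R K] [Nm K R] [KA R K] [Coded N K] [KF N R K]
  {E : Type*} [AddCommGroup E] [Module K E] [Nm E R] [NA R K E] [Coded N E] [NS N R K E]

theorem He.cmb_apply (φ : NN N → Dual N K E) [Intl N φ] (a : NN N → K) [Intl N a] (m : NN N)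
    (x : E) : (isum (fun i => a i • φ i) m) x = isum (fun i => a i * φ i x) m :=
  Dual.isum_apply (by fun_prop) m x

/-- **Helly.** -/
theorem helly_dual {F : Set E} (hF : IsISub N K F) (φ : NN N → Dual N K E) [Intl N φ]
    (c : NN N → K) [Intl N c] (m : NN N) {t η : R} (ht : 0 ≤ t) (hη : 0 < η)
    (H : ∀ a : NN N → K, Intl N a → ∀ e : R, 0 < e → ∃ x ∈ F, nm x ≤ 1 ∧
      nm (isum (fun i => a i • φ i) m) - e ≤ nm ((isum (fun i => a i • φ i) m) x))
    (hc : ∀ a : NN N → K, Intl N a →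
      nm (isum (fun i => a i * c i) m) ≤ t * nm (isum (fun i => a i • φ i) m)) :
    ∃ z ∈ F, nm z ≤ t + η ∧ ∀ i, i < m → nm (φ i z - c i) ≤ η :=
  helly_core hF (φ := fun i x => φ i x) (by fun_prop) (fun i => map_add (φ i))
    (fun i => (φ i).smul_arg) m c ht hη fun a ha hb => by
      refine (hc a ha).trans (mul_le_of_le_one_right ht ?_)
      refine le_of_forall_pos_le_add fun e he => ?_
      obtain ⟨x, hx, h1, h2⟩ := H a ha e he
      have h3 := hb x hx
      rw [← He.cmb_apply] at h3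
      linarith

/-- **The correction in the first alternative.** -/
theorem step_dual (φ : NN N → Dual N K E) [Intl N φ]
    (H : ∀ (n : NN N) (a : NN N → K) (η : R), Intl N a → 0 < η → ∃ x : E, nm x ≤ 1 ∧
      (∀ j, n ≤ j ∨ a j = 0 → φ j x = 0) ∧
      nm (isum (fun i => a i • φ i) n) - η ≤ nm ((isum (fun i => a i • φ i) n) x))
    (n m : NN N) (x : E) {t η : R} (ht : 0 < t) (hη : 0 < η)
    (h : ∀ (M : NN N) (a : NN N → K), Intl N a → (∀ i, i < n → a i = 0) →
      nm ((isum (fun i => a i • φ i) M) x) ≤ t * nm (isum (fun i => a i • φ i) M)) :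
    ∃ z : E, nm z ≤ 2 * t ∧ (∀ k, k < m → nm (φ k z - if n ≤ k then φ k x else 0) ≤ η) ∧
      ∀ s : R, η ≤ s →
        (∀ (M : NN N) (a : NN N → K), Intl N a → (∀ i, i < m → a i = 0) →
          nm ((isum (fun i => a i • φ i) M) x) ≤ s * nm (isum (fun i => a i • φ i) M)) →
        ∀ (M : NN N) (a : NN N → K), Intl N a → (∀ i, i < m → a i = 0) →
          nm ((isum (fun i => a i • φ i) M) (x - z)) ≤
            2 * s * nm (isum (fun i => a i • φ i) M) := by
  obtain ⟨z, h1, h2, h3⟩ := step_core (φ := fun i x => φ i x) (by fun_prop)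
    (fun i => map_add (φ i)) (fun i => (φ i).smul_arg)
    (fun a m => nm (isum (fun i => a i • φ i) m))
    (fun n a η ha hη => by simpa only [He.cmb_apply] using H n a η ha hη) n m x ht hη
    (fun a ha h0 => by simpa only [He.cmb_apply] using h m a ha h0)
  refine ⟨z, h1, h2, fun s hs hT M a ha h0 => ?_⟩
  have e : (isum (fun i => a i • φ i) M) z = 0 := by
    rw [He.cmb_apply]
    refine isum_eq_zero (by fun_prop) fun i _ => ?_
    rcases lt_or_ge i m with hi | hi
    · rw [h0 i hi, zero_mul]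
    · rw [h3 i (Or.inr hi), mul_zero]
  rw [map_sub, e, sub_zero]
  exact (hT M a ha h0).trans (mul_le_mul_of_nonneg_right (by linarith) (nm_nonneg _))

/-- **The first alternative**: the vectors on which the `k • φ k` are bounded are dense. -/
theorem alpha_dual [Cpl N R E] (φ : NN N → Dual N K E) [Intl N φ]
    (H : ∀ (n : NN N) (a : NN N → K) (η : R), Intl N a → 0 < η → ∃ x : E, nm x ≤ 1 ∧
      (∀ j, n ≤ j ∨ a j = 0 → φ j x = 0) ∧
      nm (isum (fun i => a i • φ i) n) - η ≤ nm ((isum (fun i => a i • φ i) n) x))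
    (h : ∀ (x : E) (ε : R), 0 < ε → ∃ n : NN N,
      ∀ (M : NN N) (a : NN N → K), Intl N a → (∀ i, i < n → a i = 0) →
        nm ((isum (fun i => a i • φ i) M) x) ≤ ε * nm (isum (fun i => a i • φ i) M))
    (x : E) (ε : R) (hε : 0 < ε) :
    ∃ y, (∃ c : R, ∀ k, nm ((algebraMap R K (rc R k) • φ k) y) ≤ c) ∧ nm (x - y) < ε :=
  corr_dual φ (fun n x r => ∀ (M : NN N) (a : NN N → K), Intl N a → (∀ i, i < n → a i = 0) →
      nm ((isum (fun i => a i • φ i) M) x) ≤ r * nm (isum (fun i => a i • φ i) M))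
    (by fun_prop) 2 h (fun n n' x r hT hn M a ha h0 => hT M a ha fun i hi => h0 i (hi.trans_le hn))
    (fun n m x t η ht hη hT => by
      obtain ⟨z, h1, h2, h3⟩ := step_dual φ H n m x ht hη hT
      exact ⟨z, h1, h2, fun s hs _ hT' => h3 s hs hT'⟩) x ε hε

end Vale.Agent.P129B
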