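import Vale.Agent.P129BE.Conv
import Vale.Agent.P129BZ.Scal

/-!
# Approximate interpolation (Helly) inside a model
-/

namespace Vale.Agent.P129B

universe v

variable {N : Type v} [ZM N]
  {R : Type*} [Field R] [LinearOrder R] [IsStrictOrderedRing R] [Coded N R] [RF N R]
  {K : Type*} [Field K] [Algebra R K] [Nm K R] [KA R K] [Coded N K] [KF N R K]

namespace He

theorem defAddFun {β : Type*} [Coded N β] [Add β] [DefAdd N β] : DefAdd N (NN N → β) := ⟨by
  have : DefF N (fun p : (NN N → β) × (NN N → β) => fun i => p.1 i + p.2 i) := by fun_prop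
  exact this⟩

omit [RF N R] in
theorem defSMulFun : DefSMul N R (NN N → K) := ⟨by
  have : DefF N (fun p : R × (NN N → K) => fun i => algebraMap R K p.1 * p.2 i) := by fun_prop
  exact this.congr fun p _ => funext fun i => (Algebra.smul_def _ _).symm⟩

/-- A definable real linear functional on the internal sequences, on the finitely supported
sequences. -/
theorem repr (l : (NN N → K) → R) (l1 : DefF N l)
    (l2 : ∀ x, Intl N x → ∀ y, Intl N y → l (x + y) = l x + l y)
    (l3 : ∀ c : R, ∀ x, Intl N x → l (c • x) = c * l x) :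
    ∃ a : NN N → K, Intl N a ∧ ∀ w : NN N → K, Intl N w → ∀ m,
      l (fun i => if i < m then w i else 0) = KA.re (isum (fun i => a i * w i) m) := by
  classical
  let e : K → NN N → NN N → K := fun z k i => if i = k then z else 0
  have he : DefF N (fun p : K × NN N => e p.1 p.2) := by simp only [e]; fun_prop
  have hI : ∀ z k, Intl N (e z k) := fun z k => he.intl (z, k)
  have h1 : DefF N (fun k => l (e 1 k)) := l1.comp (he.comp2 (DefF.const 1) DefF.id)
  have h2 : DefF N (fun k => l (e KA.I k)) := l1.comp (he.comp2 (DefF.const KA.I) DefF.id)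
  let a : NN N → K := fun k => algebraMap R K (l (e 1 k)) - algebraMap R K (l (e KA.I k)) * KA.I
  have ha : DefF N a := by simp only [a]; fun_prop
  have key : ∀ z k, l (e z k) = KA.re (a k * z) := by
    intro z k
    have e1 : e z k = KA.re z • e 1 k + KA.im z • e KA.I k := by
      funext i
      simp only [e, Pi.add_apply, Pi.smul_apply]
      split_ifs
      · rw [Algebra.smul_def, Algebra.smul_def, mul_one, KA.re_add_im]
      · simp
    have i0 := defSMulFun (N := N) (R := R) (K := K)
    rw [e1, l2 _ (intl_smul _ _) _ (intl_smul _ _), l3 _ _ (hI _ _), l3 _ _ (hI _ _)]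
    simp only [a]
    rw [sub_mul, mul_assoc, ← Algebra.smul_def, ← Algebra.smul_def, map_sub, map_smul, map_smul,
      KA.re_I_mul, smul_eq_mul, smul_eq_mul]
    ring
  refine ⟨a, ha.toIntl, fun w hw m => ?_⟩
  have hc : DefF N (fun m : NN N => fun i : NN N => if i < m then w i else 0) := by fun_prop
  refine NN.ind (P := fun m => l (fun i => if i < m then w i else 0) =
    KA.re (isum (fun i => a i * w i) m)) (DefF.eq (l1.comp hc) (by fun_prop)) ?_ (fun m ih => ?_) m
  · have e0 : (fun i : NN N => if i < 0 then w i else 0) = (0 : R) • w := by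
      funext i
      rw [if_neg (NN.not_lt_zero' i), zero_smul]; rfl
    rw [e0, l3 _ _ hw, isum_zero, map_zero, zero_mul]
  · have e1 : (fun i : NN N => if i < m + 1 then w i else 0) =
        (fun i : NN N => if i < m then w i else 0) + e (w m) m := by
      funext i
      simp only [e, Pi.add_apply]
      rcases lt_trichotomy i m with h | rfl | h
      · rw [if_pos (h.trans (NN.lt_add_one m)), if_pos h, if_neg h.ne, add_zero]
      · rw [if_pos (NN.lt_add_one _), if_neg (lt_irrefl _), if_pos rfl, zero_add]
      · rw [if_neg (not_lt.2 (NN.add_one_le_iff.2 h)), if_neg h.not_gt, if_neg h.ne', add_zero]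
    rw [e1, l2 _ (hc.intl m) _ (hI _ _), ih, key,
      isum_succ (f := fun i => a i * w i) (by fun_prop), map_add]

end He

variable {E : Type*} [AddCommGroup E] [Module K E] [Nm E R] [NA R K E] [Coded N E] [NS N R K E]

/-- **Helly**: approximate interpolation in an internal subspace; no dual space is mentioned. -/
theorem helly_core {F : Set E} (hF : IsISub N K F) {φ : NN N → E → K}
    (hφ : DefF N (fun p : NN N × E => φ p.1 p.2)) (φadd : ∀ i x y, φ i (x + y) = φ i x + φ i y)
    (φsmul : ∀ i (s : K) x, φ i (s • x) = s * φ i x) (m : NN N) (c : NN N → K) [hc : Intl N c]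
    {t η : R} (ht : 0 ≤ t) (hη : 0 < η)
    (H : ∀ a : NN N → K, Intl N a → (∀ z ∈ F, nm (isum (fun i => a i * φ i z) m) ≤ nm z) →
      nm (isum (fun i => a i * c i) m) ≤ t) :
    ∃ z ∈ F, nm z ≤ t + η ∧ ∀ i, i < m → nm (φ i z - c i) ≤ η := by
  classical
  have i1 := He.defAddFun (N := N) (β := K)
  have i2 := He.defSMulFun (N := N) (R := R) (K := K)
  have i3 := hF.intl
  have hL : 0 < (t + η) / η := by positivity
  generalize hLe : (t + η) / η = L at hL
  have φ0 : ∀ i, φ i 0 = 0 := fun i => by simpa using φsmul i 0 0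
  have hS : DefF N (fun p : (NN N → K) × E => isum (fun i => nm (p.1 i - φ i p.2)) m) := by
    fun_prop
  have hD : ∀ (w : NN N → K) (z : E), Intl N w → DefF N (fun i => nm (w i - φ i z)) :=
    fun w z _ => by fun_prop
  have S0 : ∀ (w : NN N → K) (z : E), Intl N w → 0 ≤ isum (fun i => nm (w i - φ i z)) m :=
    fun w z hw => isum_nonneg (hD w z hw) fun i _ => nm_nonneg _
  obtain ⟨l, l1, l2, l3, l4, l5⟩ := hb_inf (N := N) (R := R) RF.lub {w : NN N → K | Intl N w}
    (fun x hx y hy => by have : Intl N x := hx; have : Intl N y := hy; exact intl_add x y)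
    (fun s x hx => by have : Intl N x := hx; exact intl_smul s x) F ⟨0, hF.zero⟩
    (fun w z => nm z + L * isum (fun i => nm (w i - φ i z)) m) (by fun_prop)
    (fun w hw z _ => add_nonneg (nm_nonneg _) (mul_nonneg hL.le (S0 w z hw)))
    (fun w hw w' hw' z hz z' hz' => ⟨z + z', hF.add _ hz _ hz', by
      have : Intl N w := hw
      have : Intl N w' := hw'
      have h1 : isum (fun i => nm ((w + w') i - φ i (z + z'))) m ≤
          isum (fun i => nm (w i - φ i z)) m + isum (fun i => nm (w' i - φ i z')) m := by
        rw [← isum_add (hD w z hw) (hD w' z' hw')]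
        refine isum_le_isum (hD _ _ inferInstance) (by fun_prop) fun i _ => ?_
        rw [Pi.add_apply, φadd, add_sub_add_comm]
        exact NA.nm_add _ _
      have h2 := mul_le_mul_of_nonneg_left h1 hL.le
      have h3 := NA.nm_add z z'
      linarith⟩)
    (fun s hs w hw z hz => ⟨algebraMap R K s • z, hF.smul _ _ hz, le_of_eq (by
      have : Intl N w := hw
      have h1 : isum (fun i => nm ((s • w) i - φ i (algebraMap R K s • z))) m =
          s * isum (fun i => nm (w i - φ i z)) m := by
        rw [mul_isum s (hD w z hw)]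
        refine isum_congr (hD _ _ inferInstance) (by fun_prop) fun i _ => ?_
        rw [Pi.smul_apply, φsmul, Algebra.smul_def, ← mul_sub, KA.nm_mul, KA.nm_ofR, abs_of_pos hs]
      rw [h1, NA.nm_smul, KA.nm_ofR, abs_of_pos hs]
      ring)⟩) (x₀ := c) hc
  obtain ⟨a, ha, hrep⟩ := He.repr l l1 l2 l3
  have hz : ∀ u : NN N → K, Intl N u → (∀ i, i < m → u i = 0) → l u ≤ 0 := fun u hu h => by
    have h1 := l4 u hu 0 hF.zero
    rwa [isum_eq_zero (hD u 0 hu) (fun i hi => by rw [h i hi, φ0, sub_zero, nm_zero]), nm_zero,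
      mul_zero, add_zero] at h1
  have hrep' : ∀ w : NN N → K, Intl N w → l w = KA.re (isum (fun i => a i * w i) m) := by
    intro w hw
    have j1 : Intl N (fun i : NN N => if i < m then w i else 0) := DefF.toIntl (by fun_prop)
    have j2 : Intl N (fun i : NN N => if i < m then 0 else w i) := DefF.toIntl (by fun_prop)
    have e1 : w = (fun i : NN N => if i < m then w i else 0) +
        (fun i : NN N => if i < m then 0 else w i) := by
      funext i
      simp only [Pi.add_apply]
      split_ifs <;> simp
    have h1 := hz _ j2 fun i hi => if_pos hi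
    have h2 := hz ((-1 : R) • fun i : NN N => if i < m then 0 else w i) inferInstance
      fun i hi => by rw [Pi.smul_apply, if_pos hi, smul_zero]
    rw [l3 _ _ j2] at h2
    have h3 := l2 _ j1 _ j2
    rw [← e1, hrep w hw] at h3
    linarith
  have h1 : l c ≤ t := by
    rw [hrep' c hc]
    refine (KA.re_le_nm _).trans (H a ha fun z hz => ?_)
    obtain ⟨σ, hσ1, hσ2⟩ := KA.exists_rot (isum (fun i => a i * φ i z) m)
    have j1 : Intl N (fun i => φ i (σ • z)) := DefF.toIntl (by fun_prop)
    have h2 := l4 _ j1 (σ • z) (hF.smul _ _ hz)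
    rw [isum_eq_zero (hD _ _ j1) (fun i _ => by rw [sub_self, nm_zero]), mul_zero, add_zero,
      NA.nm_smul, hσ1, one_mul, hrep' _ j1] at h2
    have e1 : isum (fun i => a i * φ i (σ • z)) m = σ * isum (fun i => a i * φ i z) m := by
      rw [mul_isum σ (by fun_prop)]
      exact isum_congr (by fun_prop) (by fun_prop) fun i _ => by rw [φsmul]; ring
    rwa [e1, hσ2, KA.re_ofR] at h2
  obtain ⟨z, hz, h2⟩ := l5 η hη
  have h3 := mul_nonneg hL.le (S0 c z hc)
  refine ⟨z, hz, by linarith, fun i hi => ?_⟩
  have h4 := le_isum (hD c z hc) hi fun i _ => nm_nonneg _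
  have h5 : L * nm (c i - φ i z) ≤ L * η := by
    have : L * η = t + η := by rw [← hLe]; field_simp
    have h6 := mul_le_mul_of_nonneg_left h4 hL.le
    linarith [nm_nonneg z]
  rw [nm_sub_rev]
  exact le_of_mul_le_mul_left h5 hL

end Vale.Agent.P129B
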