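import Vale.Agent.P129BE.Dual
import Vale.Agent.P129BM.Spec

/-!
# The rows `HELLY` and `ALPHA`
-/

namespace Vale.Agent.P129B

universe v

variable {N : Type v} [ZM N]
  {R : Type*} [Field R] [LinearOrder R] [IsStrictOrderedRing R] [Coded N R] [RF N R]
  {K : Type*} [Field K] [Algebra R K] [Nm K R] [KA R K] [Coded N K] [KF N R K]
  {E : Type*} [AddCommGroup E] [Module K E] [Nm E R] [NA R K E] [Coded N E] [NS N R K E]

theorem helly : HELLY N R K E := fun _ φ c m _ _ hF _ _ ht hη H hc =>
  helly_dual hF φ c m ht hη H hc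

theorem alpha [Cpl N R E] : ALPHA N R K E := fun φ _ H h x ε hε =>
  alpha_dual φ (fun n a η ha hη => H n a ha η hη) h x ε hε

end Vale.Agent.P129B
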