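import Vale.Agent.P129BE.Helly

/-!
# The correction in the first alternative
-/

namespace Vale.Agent.P129B

universe v

variable {N : Type v} [ZM N]
  {R : Type*} [Field R] [LinearOrder R] [IsStrictOrderedRing R] [Coded N R] [RF N R]
  {K : Type*} [Field K] [Algebra R K] [Nm K R] [KA R K] [Coded N K] [KF N R K]
  {E : Type*} [AddCommGroup E] [Module K E] [Nm E R] [NA R K E] [Coded N E] [NS N R K E]

/-- The correction step; `ν a m` stands for the norm of the combination of `φ i`, `i < m`, with
coefficients `a`. -/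
theorem step_core {φ : NN N → E → K}
    (hφ : DefF N (fun p : NN N × E => φ p.1 p.2)) (φadd : ∀ i x y, φ i (x + y) = φ i x + φ i y)
    (φsmul : ∀ i (s : K) x, φ i (s • x) = s * φ i x) (ν : (NN N → K) → NN N → R)
    (H : ∀ (n : NN N) (a : NN N → K) (η : R), Intl N a → 0 < η → ∃ x : E, nm x ≤ 1 ∧
      (∀ j, n ≤ j ∨ a j = 0 → φ j x = 0) ∧ ν a n - η ≤ nm (isum (fun i => a i * φ i x) n))
    (n m : NN N) (x : E) {t η : R} (ht : 0 < t) (hη : 0 < η)
    (h : ∀ a : NN N → K, Intl N a → (∀ i, i < n → a i = 0) →
      nm (isum (fun i => a i * φ i x) m) ≤ t * ν a m) :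
    ∃ z : E, nm z ≤ 2 * t ∧ (∀ k, k < m → nm (φ k z - if n ≤ k then φ k x else 0) ≤ η) ∧
      ∀ j, j < n ∨ m ≤ j → φ j z = 0 := by
  classical
  have φ0 : ∀ i, φ i 0 = 0 := fun i => by simpa using φsmul i 0 0
  have hF : IsISub N K {z : E | ∀ j, j < n ∨ m ≤ j → φ j z = 0} :=
    ⟨intl_setOfT (by fun_prop), fun j _ => φ0 j,
      fun y hy z hz j hj => by rw [φadd, hy j hj, hz j hj, add_zero],
      fun c z hz j hj => by rw [φsmul, hz j hj, mul_zero]⟩
  have hc : Intl N (fun k => if n ≤ k then φ k x else 0) := DefF.toIntl (by fun_prop)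
  obtain ⟨z, hz, h1, h2⟩ := helly_core hF hφ φadd φsmul m (fun k => if n ≤ k then φ k x else 0)
    ht.le (lt_min ht hη) fun a ha hb => by
      have ha' : Intl N (fun i => if n ≤ i then a i else 0) := DefF.toIntl (by fun_prop)
      have e1 : isum (fun i => a i * if n ≤ i then φ i x else 0) m =
          isum (fun i => (if n ≤ i then a i else 0) * φ i x) m :=
        isum_congr (by fun_prop) (by fun_prop) fun i _ => by split_ifs <;> simp
      have h3 : ν (fun i => if n ≤ i then a i else 0) m ≤ 1 := by
        refine le_of_forall_pos_le_add fun ε hε => ?_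
        obtain ⟨y, y1, y2, y3⟩ := H m _ ε ha' hε
        have hy : ∀ j, j < n ∨ m ≤ j → φ j y = 0 := fun j hj =>
          y2 j (hj.symm.imp_right fun hj => if_neg (not_le.2 hj))
        have e2 : isum (fun i => (if n ≤ i then a i else 0) * φ i y) m =
            isum (fun i => a i * φ i y) m :=
          isum_congr (by fun_prop) (by fun_prop) fun i _ => by
            split_ifs with hi
            · rfl
            · rw [hy i (Or.inl (not_le.1 hi)), mul_zero, mul_zero]
        rw [e2] at y3
        linarith [hb y hy]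
      rw [e1]
      exact (h _ ha' fun i hi => if_neg (not_le.2 hi)).trans (mul_le_of_le_one_right ht.le h3)
  exact ⟨z, by linarith [min_le_left t η], fun k hk => (h2 k hk).trans (min_le_right _ _), hz⟩

end Vale.Agent.P129B
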